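import Vale.Agent.P092.H411.NAgr

/-!
P092 (helper366), Team P, row [P-AGR]: agreement spaces of two members of a covariant family of
ucp maps (with a scalar mass), in the picture `RC.Pic` (general source group `G`, general target
space `Y`).
-/

set_option linter.all false

open scoped InnerProductSpace
open ContinuousLinearMap

namespace Vale.Agent.P092.H366

open Vale.Agent.P092.RC Vale.Agent.P092.H76.Pur Vale.Agent.P092.H411

section pic

variable {G Γ K : Type} [Group G] [TopologicalSpace G] [Group Γ] [NormedAddCommGroup K]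
  [InnerProductSpace ℂ K] [CompleteSpace K]
  {π : G →* (K →L[ℂ] K)} {lam : Γ →* (K →L[ℂ] K)} {W : Set (K →L[ℂ] K)} {Ω : K}

section two

variable {Y : Type*} [TopologicalSpace Y] {E E' : C(Y, ℂ) → (K →L[ℂ] K)}

/-- **[P-AGR]**, dichotomy for two families of operators indexed by the functions on `Y`: they are
equal or agree nowhere. `S` is a symmetric set of elements which fix both. -/
theorem agr_two (hp : RC.Pic π lam W Ω) (cm : ∀ f, Cm W (E f)) (cm' : ∀ f, Cm W (E' f))
    (hlam : ∀ γ, ∃ σ : C(Y, ℂ) → C(Y, ℂ), (∀ f, lam γ * E f = E (σ f) * lam γ) ∧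
      ∀ f, lam γ * E' f = E' (σ f) * lam γ)
    {S : Set G} (hS : RC.Moore S) (hinv : ∀ g ∈ S, g⁻¹ ∈ S)
    (hπ : ∀ g ∈ S, ∀ f, E f * π g = π g * E f) (hπ' : ∀ g ∈ S, ∀ f, E' f * π g = π g * E' f) :
    (∀ f, E f = E' f) ∨ ∀ ζ, (∀ f, E f ζ = E' f ζ) → ζ = 0 := by
  have hl1 : ∀ γ, lam γ * lam γ⁻¹ = 1 := fun γ => by rw [← map_mul, mul_inv_cancel, map_one]
  refine agr_dich (β₁ := fun f => E f) (β₂ := fun f => E' f)
    (𝒮 := W ∪ Set.range lam ∪ π '' S) ?_ ?_
  · intro T hT
    exact hp.erg _ hS T (fun w hw => hT w (Or.inl (Or.inl hw)))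
      (fun γ => hT _ (Or.inl (Or.inr ⟨γ, rfl⟩))) fun g hg => hT _ (Or.inr ⟨g, hg, rfl⟩)
  · rintro U ((hw | ⟨γ, rfl⟩) | ⟨g, hg, rfl⟩)
    · exact ⟨Nrm.of_comm (fun F => cm F U hw) fun F => cm' F U hw,
        Nrm.of_comm (fun F => cm F _ (hp.Wadj U hw)) fun F => cm' F _ (hp.Wadj U hw)⟩
    · have e : ∀ γ : Γ, Nrm (fun F => E F) (fun F => E' F) (lam γ) := by
        intro γ
        obtain ⟨σ, hσ, hσ'⟩ := hlam γ⁻¹
        refine nrm_cov' (hl1 γ) ?_ (fun F => hσ F) fun F => hσ' F
        have := hl1 γ⁻¹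
        rwa [inv_inv] at this
      refine ⟨e γ, ?_⟩
      rw [hp.adjL]
      exact e γ⁻¹
    · have e : ∀ g ∈ S, Nrm (fun F => E F) (fun F => E' F) (π g) := fun g hg =>
        Nrm.of_comm (fun F => hπ g hg F) fun F => hπ' g hg F
      refine ⟨e g hg, ?_⟩
      rw [hp.adjP]
      exact e g⁻¹ (hinv g hg)

end two

section fam

variable {Y I : Type*} [TopologicalSpace Y] [MulAction G I]
  {E : I → (C(Y, ℂ) →ₗ[ℂ] (K →L[ℂ] K))}

/-- **[P-AGR]**, dichotomy: two members of a covariant family are equal or agree nowhere, if the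
stabiliser of the pair has the Moore property. -/
theorem agr_sub (hp : RC.Pic π lam W Ω) (cm : ∀ X f, Cm W (E X f))
    (hlam : ∀ γ, ∃ σ : C(Y, ℂ) → C(Y, ℂ), ∀ X f, lam γ * E X f = E X (σ f) * lam γ)
    (pcov : ∀ g X f, π g * E X f = E (g • X) f * π g) {X X' : I}
    (hS : RC.Moore {g : G | g • X = X ∧ g • X' = X'}) :
    (∀ f, E X f = E X' f) ∨ ∀ ζ, (∀ f, E X f ζ = E X' f ζ) → ζ = 0 := by
  refine agr_two (E := fun f => E X f) (E' := fun f => E X' f) hp (fun f => cm X f)
    (fun f => cm X' f) ?_ hS ?_ ?_ ?_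
  · intro γ
    obtain ⟨σ, hσ⟩ := hlam γ
    exact ⟨σ, fun f => hσ X f, fun f => hσ X' f⟩
  · rintro g ⟨h1, h2⟩
    exact ⟨by rw [inv_smul_eq_iff, h1], by rw [inv_smul_eq_iff, h2]⟩
  · rintro g ⟨h1, h2⟩ f
    have := pcov g X f
    rw [h1] at this
    exact this.symm
  · rintro g ⟨h1, h2⟩ f
    have := pcov g X' f
    rw [h2] at this
    exact this.symm

variable [CompactSpace Y]

/-- Two members of a covariant family are different, if their stabilisers generate the group and
if there is no invariant state on the target space. -/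
theorem ne_of_gen (hp : RC.Pic π lam W Ω) (cm : ∀ X f, Cm W (E X f)) {act : Γ → Y → Y}
    (hNI : NIS act) (cov : ∀ X, H76.Pur.Cov act lam (E X))
    (pcov : ∀ g X f, π g * E X f = E (g • X) f * π g) {X X' : I}
    (hU : H76.Pur.UCP (E X)) {c : ℂ} (hc : c ≠ 0) (h1 : E X 1 = c • 1)
    (hgen : Subgroup.closure ({g : G | g • X = X} ∪ {g : G | g • X' = X'}) = ⊤)
    (he : ∀ f, E X f = E X' f) : False := by
  have key : ∀ g : G, ∀ f, E X f * π g = π g * E X f := by
    intro g
    have hg : g ∈ Subgroup.closure ({g : G | g • X = X} ∪ {g : G | g • X' = X'}) := by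
      rw [hgen]
      exact Subgroup.mem_top g
    induction hg using Subgroup.closure_induction with
    | mem x hx =>
      intro f
      rcases hx with hx | hx
      · have := pcov x X f
        rw [show x • X = X from hx] at this
        exact this.symm
      · have := pcov x X' f
        rw [show x • X' = X' from hx, ← he f] at this
        exact this.symm
    | one =>
      intro f
      rw [map_one, mul_one, one_mul]
    | mul x y _ _ h1 h2 =>
      intro f
      rw [map_mul, ← mul_assoc, h1 f, mul_assoc, h2 f, mul_assoc]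
    | inv x _ h1 =>
      intro f
      have e1 : π x * π x⁻¹ = 1 := by rw [← map_mul, mul_inv_cancel, map_one]
      have e2 : π x⁻¹ * π x = 1 := by rw [← map_mul, inv_mul_cancel, map_one]
      calc E X f * π x⁻¹ = (π x⁻¹ * π x) * (E X f * π x⁻¹) := by rw [e2, one_mul]
        _ = π x⁻¹ * (π x * E X f) * π x⁻¹ := by simp only [mul_assoc]
        _ = π x⁻¹ * (E X f * π x) * π x⁻¹ := by rw [h1 f]
        _ = π x⁻¹ * E X f * (π x * π x⁻¹) := by simp only [mul_assoc]
        _ = π x⁻¹ * E X f := by rw [e1, mul_one]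
  exact const_false hNI hp.nΩ hp.inv hU hc h1 (cov X) (fun f w hw => cm X f w hw)
    fun f g => key g f

/-- **[P-AGR]**: two different members of a covariant family of ucp maps of scalar mass `≠ 0` agree
nowhere. -/
theorem agr_gr (hp : RC.Pic π lam W Ω) (cm : ∀ X f, Cm W (E X f)) {act : Γ → Y → Y}
    (hNI : NIS act) (hact : ∀ γ, ∀ f : C(Y, ℂ), ∃ f' : C(Y, ℂ), ∀ x, f' (act γ x) = f x)
    (cov : ∀ X, H76.Pur.Cov act lam (E X))
    (pcov : ∀ g X f, π g * E X f = E (g • X) f * π g) {X X' : I}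
    (hU : H76.Pur.UCP (E X)) {c : ℂ} (hc : c ≠ 0) (h1 : E X 1 = c • 1)
    (hS : RC.Moore {g : G | g • X = X ∧ g • X' = X'})
    (hgen : Subgroup.closure ({g : G | g • X = X} ∪ {g : G | g • X' = X'}) = ⊤) :
    ∀ ζ, (∀ f, E X f ζ = E X' f ζ) → ζ = 0 := by
  have hl1 : ∀ γ, lam γ⁻¹ * lam γ = 1 := fun γ => by rw [← map_mul, inv_mul_cancel, map_one]
  refine (agr_sub hp cm ?_ pcov hS).resolve_left fun he =>
    ne_of_gen hp cm hNI cov pcov hU hc h1 hgen he
  intro γ
  choose σ hσ using hact γ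
  refine ⟨σ, fun X f => ?_⟩
  rw [← cov X γ f (σ f) (hσ f), mul_assoc, hl1, mul_one]

/-- The common kernel of the differences `E m g - E m' g` over all pairs in `P` is `0` as soon as
one pair agrees nowhere. -/
theorem ker_diff {P : I → I → Prop} {X X' : I} (hP : P X X')
    (h : ∀ ζ, (∀ f, E X f ζ = E X' f ζ) → ζ = 0) :
    ∀ ζ, (∀ m m' f, P m m' → (E m f - E m' f) ζ = 0) → ζ = 0 := by
  intro ζ hζ
  refine h ζ fun f => ?_
  have := hζ X X' f hP
  rw [ContinuousLinearMap.sub_apply, sub_eq_zero] at this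
  exact this

/-- **The form used in (4) of the multiplicativity proof**: an operator which kills, from the left,
the ranges of the differences `E X f - E X' f` is zero. -/
theorem eq_zero_of_mul_diff {X X' : I} (hadj : ∀ f, adjoint (E X f) = E X (star f))
    (hadj' : ∀ f, adjoint (E X' f) = E X' (star f))
    (h : ∀ ζ, (∀ f, E X f ζ = E X' f ζ) → ζ = 0) {T : K →L[ℂ] K}
    (hT : ∀ f, T * (E X f - E X' f) = 0) : T = 0 := by
  refine eq_zero_of_agr' (β₁ := fun f => E X f) (β₂ := fun f => E X' f) (σ := star) hadj hadj'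
    star_involutive.surjective h fun f => ?_
  have := hT f
  rwa [mul_sub, sub_eq_zero] at this

/-- the same for a product on the right -/
theorem eq_zero_of_diff_mul {X X' : I} (h : ∀ ζ, (∀ f, E X f ζ = E X' f ζ) → ζ = 0)
    {T : K →L[ℂ] K} (hT : ∀ f, (E X f - E X' f) * T = 0) : T = 0 := by
  refine eq_zero_of_agr (β₁ := fun f => E X f) (β₂ := fun f => E X' f) h fun f => ?_
  have := hT f
  rwa [sub_mul, sub_eq_zero] at this

end fam

end pic

end Vale.Agent.P092.H366
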