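import Vale.Agent.P092.H366.PAgr
import Vale.Agent.P092.SP.UL

/-!
P092 (helper366), Team P, row [P-AGR] in the letters of `SP.UL`: two limits of the same kind which
are different agree nowhere. Everything is stated with sets of source elements which commute with
the maps, so that it can be used for points and for lines.
-/

set_option linter.all false

open scoped InnerProductSpace
open ContinuousLinearMap

namespace Vale.Agent.P092.H366

open Vale.Agent.P092.RC Vale.Agent.P092.H76.Pur Vale.Agent.P092.H411 Vale.Agent.P092.SP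

section ul

variable {Y K : Type*} [TopologicalSpace Y] [NormedAddCommGroup K] [InnerProductSpace ℂ K]
  [CompleteSpace K] {E : C(Y, ℂ) →ₗ[ℂ] (K →L[ℂ] K)} {p : ℝ}

theorem UL_kad (h : UL E p) (f : C(Y, ℂ)) (ξ : K) :
    ‖E f ξ‖ ^ 2 ≤ (⟪ξ, E (star f * f) ξ⟫_ℂ).re := by
  have := h.bes 1 (fun _ => f) ξ
  simpa using this

theorem UL_adj (h : UL E p) (f : C(Y, ℂ)) : adjoint (E f) = E (star f) := by
  rw [h.star, star_eq_adjoint]

theorem UL_inner_one (h : UL E p) (ξ : K) : (⟪ξ, E 1 ξ⟫_ℂ).re = p * ‖ξ‖ ^ 2 := by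
  rw [h.one, ContinuousLinearMap.smul_apply, inner_smul_right]
  change ((p : ℂ) * ⟪ξ, ξ⟫_ℂ).re = _
  rw [inner_self_eq_norm_sq_to_K, Complex.re_ofReal_mul]
  norm_cast

theorem UL_p (h : UL E p) {ξ : K} (hξ : ξ ≠ 0) : 0 ≤ p ∧ p ≤ 1 := by
  have h1 := UL_kad h 1 ξ
  rw [star_one, one_mul, UL_inner_one h, h.one, ContinuousLinearMap.smul_apply, norm_smul,
    Complex.norm_real, mul_pow] at h1
  change ‖p‖ ^ 2 * ‖ξ‖ ^ 2 ≤ _ at h1
  have h2 : 0 < ‖ξ‖ ^ 2 := by positivity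
  have h3 : p ^ 2 ≤ p := by
    have := le_of_mul_le_mul_right h1 h2
    rwa [Real.norm_eq_abs, sq_abs] at this
  constructor
  · nlinarith [sq_nonneg p]
  · by_contra hc
    push Not at hc
    nlinarith

theorem UL_ucp (h : UL E p) : UCP E := by
  refine ⟨UL_adj h, UL_kad h, fun ξ => ?_⟩
  rw [UL_inner_one h]
  by_cases hξ : ξ = 0
  · rw [hξ, norm_zero]
    simp
  · exact mul_le_of_le_one_left (sq_nonneg _) (UL_p h hξ).2

end ul

section pic

variable {G Γ K : Type} [Group G] [TopologicalSpace G] [Group Γ] [NormedAddCommGroup K]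
  [InnerProductSpace ℂ K] [CompleteSpace K]
  {π : G →* (K →L[ℂ] K)} {lam : Γ →* (K →L[ℂ] K)} {W : Set (K →L[ℂ] K)} {Ω : K}
  {Y : Type*} [TopologicalSpace Y]

/-- covariance in the letters `act (q γ)` gives covariance in the letters of `Pur` -/
theorem cov_of_act {act : Γ → Y → Y} {E : C(Y, ℂ) →ₗ[ℂ] (K →L[ℂ] K)} {σ : Γ → C(Y, ℂ) → C(Y, ℂ)}
    (hσ : ∀ γ f x, σ γ f (act γ x) = f x) (hs : ∀ γ, Function.Surjective (act γ))
    (h : ∀ γ f, lam γ * E f * lam γ⁻¹ = E (σ γ f)) : Cov act lam E := by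
  intro γ f f' hf
  rw [h γ f]
  congr 1
  ext y
  obtain ⟨x, rfl⟩ := hs γ y
  rw [hσ, hf]

variable [CompactSpace Y] {E E' : C(Y, ℂ) →ₗ[ℂ] (K →L[ℂ] K)} {p : ℝ}

/-- a limit of mass `≠ 0` does not commute with all of `π` -/
theorem not_comm_all (hp : RC.Pic π lam W Ω) (cm : ∀ f, Cm W (E f)) {act : Γ → Y → Y}
    (hNI : NIS act) (cov : Cov act lam E) (hU : UL E p) (hp0 : p ≠ 0)
    (h : ∀ f g, E f * π g = π g * E f) : False :=
  const_false hNI hp.nΩ hp.inv (UL_ucp hU) (c := (p : ℂ)) (by exact_mod_cast hp0) hU.one cov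
    (fun f w hw => cm f w hw) h

theorem comm_closure {Q : Set G} {T : K →L[ℂ] K} (h : ∀ g ∈ Q, T * π g = π g * T) :
    ∀ g ∈ Subgroup.closure Q, T * π g = π g * T := by
  intro g hg
  induction hg using Subgroup.closure_induction with
  | mem x hx => exact h x hx
  | one => rw [map_one, mul_one, one_mul]
  | mul x y _ _ h1 h2 => rw [map_mul, ← mul_assoc, h1, mul_assoc, h2, mul_assoc]
  | inv x _ h1 =>
    have e1 : π x * π x⁻¹ = 1 := by rw [← map_mul, mul_inv_cancel, map_one]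
    have e2 : π x⁻¹ * π x = 1 := by rw [← map_mul, inv_mul_cancel, map_one]
    calc T * π x⁻¹ = (π x⁻¹ * π x) * (T * π x⁻¹) := by rw [e2, one_mul]
      _ = π x⁻¹ * (π x * T) * π x⁻¹ := by simp only [mul_assoc]
      _ = π x⁻¹ * (T * π x) * π x⁻¹ := by rw [h1]
      _ = π x⁻¹ * T * (π x * π x⁻¹) := by simp only [mul_assoc]
      _ = π x⁻¹ * T := by rw [e1, mul_one]

/-- **[P-AGR]**: `E` commutes with `π Q`, `E'` with `π Q'`, both with `π S`, `S` Moore; `Q ∪ Q'`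
generates `G`; then `E` and `E'` agree nowhere, if the mass is not `0`. -/
theorem agr_ul (hp : RC.Pic π lam W Ω) (cm : ∀ f, Cm W (E f)) (cm' : ∀ f, Cm W (E' f))
    {act : Γ → Y → Y} (hNI : NIS act)
    (hact : ∀ γ, ∀ f : C(Y, ℂ), ∃ f' : C(Y, ℂ), ∀ x, f' (act γ x) = f x)
    (cov : Cov act lam E) (cov' : Cov act lam E') (hU : UL E p) (hp0 : p ≠ 0)
    {S : Set G} (hS : RC.Moore S) (hinv : ∀ g ∈ S, g⁻¹ ∈ S)
    (hSE : ∀ g ∈ S, ∀ f, E f * π g = π g * E f) (hSE' : ∀ g ∈ S, ∀ f, E' f * π g = π g * E' f)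
    {Q Q' : Set G} (hQ : Subgroup.closure (Q ∪ Q') = ⊤)
    (hQE : ∀ g ∈ Q, ∀ f, E f * π g = π g * E f) (hQE' : ∀ g ∈ Q', ∀ f, E' f * π g = π g * E' f) :
    ∀ ζ, (∀ f, E f ζ = E' f ζ) → ζ = 0 := by
  have hl1 : ∀ γ, lam γ⁻¹ * lam γ = 1 := fun γ => by rw [← map_mul, inv_mul_cancel, map_one]
  refine (agr_two (E := fun f => E f) (E' := fun f => E' f) hp cm cm' ?_ hS hinv hSE
    hSE').resolve_left fun he => ?_
  · intro γ
    choose σ hσ using hact γ
    refine ⟨σ, fun f => ?_, fun f => ?_⟩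
    · rw [← cov γ f (σ f) (hσ f), mul_assoc, hl1, mul_one]
    · rw [← cov' γ f (σ f) (hσ f), mul_assoc, hl1, mul_one]
  · refine not_comm_all hp cm hNI cov hU hp0 fun f g => ?_
    have hg : g ∈ Subgroup.closure (Q ∪ Q') := by
      rw [hQ]
      exact Subgroup.mem_top g
    refine comm_closure (fun x hx => ?_) g hg
    rcases hx with hx | hx
    · exact hQE x hx f
    · have := hQE' x hx f
      rw [← he f] at this
      exact this

/-- The family form: `a : G → I → I` is how the source group moves the indices. -/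
theorem agr_ul_fam {I : Type*} {F : I → (C(Y, ℂ) →ₗ[ℂ] (K →L[ℂ] K))} (hp : RC.Pic π lam W Ω)
    (cm : ∀ x f, Cm W (F x f)) {act : Γ → Y → Y} (hNI : NIS act)
    (hact : ∀ γ, ∀ f : C(Y, ℂ), ∃ f' : C(Y, ℂ), ∀ x, f' (act γ x) = f x)
    (cov : ∀ x, Cov act lam (F x)) (hU : ∀ x, UL (F x) p) (hp0 : p ≠ 0) {a : G → I → I}
    (hai : ∀ g x, a g x = x → a g⁻¹ x = x)
    (pcov : ∀ g x f, π g * F x f * π g⁻¹ = F (a g x) f) {x x' : I}
    (hS : RC.Moore {g : G | a g x = x ∧ a g x' = x'})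
    (hQ : Subgroup.closure ({g : G | a g x = x} ∪ {g : G | a g x' = x'}) = ⊤) :
    ∀ ζ, (∀ f, F x f ζ = F x' f ζ) → ζ = 0 := by
  have hc : ∀ g y, a g y = y → ∀ f, F y f * π g = π g * F y f := by
    intro g y hy f
    have h1 := pcov g y f
    rw [hy] at h1
    nth_rewrite 1 [← h1]
    rw [mul_assoc, ← map_mul, inv_mul_cancel, map_one, mul_one]
  exact agr_ul hp (cm x) (cm x') hNI hact (cov x) (cov x') (hU x) hp0 hS
    (fun g hg => ⟨hai g x hg.1, hai g x' hg.2⟩) (fun g hg f => hc g x hg.1 f)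
    (fun g hg f => hc g x' hg.2 f) hQ (fun g hg f => hc g x hg f) fun g hg f => hc g x' hg f

/-- multiplicativity, last step: `T (E f - E' f) = 0` for all `f` gives `T = 0` -/
theorem UL_mul_diff {p' : ℝ} (hU : UL E p) (hU' : UL E' p') (h : ∀ ζ, (∀ f, E f ζ = E' f ζ) → ζ = 0)
    {T : K →L[ℂ] K} (hT : ∀ f, T * (E f - E' f) = 0) : T = 0 := by
  refine eq_zero_of_agr' (β₁ := fun f => E f) (β₂ := fun f => E' f) (σ := star) (UL_adj hU)
    (UL_adj hU') star_involutive.surjective h fun f => ?_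
  have := hT f
  rwa [mul_sub, sub_eq_zero] at this

end pic

end Vale.Agent.P092.H366
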